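import Vale.Agent.P065.UB.H759.U2Defs

/-!
# P065, upper bound, line P: [DIM] (helper295)

`stDim : StDim`: a strip of width `θ` with many active points forces `δ lam ^ 2 ≤ L ^ c₃ θ`.
-/

set_option autoImplicit false

namespace Vale.Agent.P065.UB.H295

open Finset Vale.Agent.P065.UB Vale.Agent.P065.UB.H759

section General

open Classical in
/-- Cauchy-Schwarz and the largest class. -/
theorem pigeon {ι : Type} (W : Finset ι) (f : ι → ℤ) (n : ℤ → ℝ) (A R N : ℝ)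
    (hA : 0 ≤ A) (hN : 0 < N)
    (hn : ∀ k, 0 ≤ n k)
    (h1 : ∀ k, (#{w ∈ W | f w = k} : ℝ) * N ^ 2 ≤ (A * n k) ^ 2)
    (h2 : ∑ k ∈ W.image f, n k ≤ R * N) (hW : W.Nonempty) :
    ∃ k, (#W : ℝ) ^ 2 ≤ (A * R) ^ 2 * #{w ∈ W | f w = k} := by
  have hne : (W.image f).Nonempty := hW.image f
  obtain ⟨k₀, hk₀, hmax⟩ :=
    (W.image f).exists_max_image (fun k => (#{w ∈ W | f w = k} : ℝ)) hne
  refine ⟨k₀, ?_⟩
  set g : ℤ → ℝ := fun k => (#{w ∈ W | f w = k} : ℝ) with hg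
  have hg0 : ∀ k, 0 ≤ g k := fun k => Nat.cast_nonneg _
  have hs : ∀ k, √(g k) * N ≤ A * n k := fun k => by
    refine (pow_le_pow_iff_left₀ (by positivity) (mul_nonneg hA (hn k)) two_ne_zero).1 ?_
    rw [mul_pow, Real.sq_sqrt (hg0 k)]
    exact h1 k
  have hcard : (#W : ℝ) = ∑ k ∈ W.image f, g k := by
    rw [Finset.card_eq_sum_card_image f W]
    push_cast
    rfl
  have hbd : N * #W ≤ √(g k₀) * A * R * N := by
    calc N * #W = ∑ k ∈ W.image f, √(g k) * (√(g k) * N) := by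
          rw [hcard, Finset.mul_sum]
          refine Finset.sum_congr rfl fun k _ => ?_
          rw [← mul_assoc, Real.mul_self_sqrt (hg0 k)]
          ring
      _ ≤ ∑ k ∈ W.image f, √(g k₀) * (A * n k) := by
          refine Finset.sum_le_sum fun k hk => ?_
          refine mul_le_mul (Real.sqrt_le_sqrt (hmax k hk)) (hs k) (by positivity)
            (Real.sqrt_nonneg _)
      _ = √(g k₀) * A * ∑ k ∈ W.image f, n k := by
          rw [Finset.mul_sum]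
          refine Finset.sum_congr rfl fun k _ => by ring
      _ ≤ √(g k₀) * A * (R * N) := by
          refine mul_le_mul_of_nonneg_left h2 (by positivity)
      _ = √(g k₀) * A * R * N := by ring
  have hbd2 : (#W : ℝ) ≤ √(g k₀) * A * R := by
    rw [mul_comm] at hbd
    exact le_of_mul_le_mul_right hbd hN
  calc (#W : ℝ) ^ 2 ≤ (√(g k₀) * A * R) ^ 2 := pow_le_pow_left₀ (Nat.cast_nonneg _) hbd2 2
    _ = (A * R) ^ 2 * g k₀ := by
        rw [mul_assoc, mul_pow, Real.sq_sqrt (hg0 k₀)]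
        ring

open Classical in
theorem sum_count {κ : Type} (Q : Finset Pt) (I : Finset κ) (P : κ → Pt → Prop) (r : ℕ)
    (h : ∀ p ∈ Q, #{k ∈ I | P k p} ≤ r) :
    ∑ k ∈ I, (#{p ∈ Q | P k p} : ℝ) ≤ r * #Q := by
  have h1 : ∑ k ∈ I, #{p ∈ Q | P k p} = ∑ p ∈ Q, #{k ∈ I | P k p} :=
    Finset.sum_card_bipartiteAbove_eq_sum_card_bipartiteBelow P
  have h2 : ∑ p ∈ Q, #{k ∈ I | P k p} ≤ ∑ _p ∈ Q, r := Finset.sum_le_sum h
  rw [← h1, Finset.sum_const, smul_eq_mul] at h2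
  have h3 : ((∑ k ∈ I, #{p ∈ Q | P k p} : ℕ) : ℝ) ≤ ((#Q * r : ℕ) : ℝ) := by exact_mod_cast h2
  push_cast at h3
  linarith

/-- integers in a window of length three -/
theorem card_le_three (I : Finset ℤ) (P : ℤ → Prop) [DecidablePred P] (j : ℤ)
    (h : ∀ k ∈ I, P k → j - 1 ≤ k ∧ k ≤ j + 1) : #{k ∈ I | P k} ≤ 3 := by
  have hsub : {k ∈ I | P k} ⊆ Finset.Icc (j - 1) (j + 1) := by
    intro k hk
    rw [Finset.mem_filter] at hk
    rw [Finset.mem_Icc]
    exact h k hk.1 hk.2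
  refine (Finset.card_le_card hsub).trans ?_
  rw [Int.card_Icc]
  have : j + 1 + 1 - (j - 1) = 3 := by ring
  rw [this]
  rfl

end General

section Main

variable {C0 : ℕ} {K L lam δ : ℝ} {Q : Finset Pt} {ι : Type} {W : Finset ι}
    {a b : ι → ℝ} {Y : ι → Finset Pt} {J : ι → Finset (Pt × Pt)}

theorem PJ.K1 (h : PJ C0 K L lam δ Q W a b Y J) : 1 ≤ K := by linarith [h.two]

theorem PJ.KjL (h : PJ C0 K L lam δ Q W a b Y J) {j : ℕ} (hj : j ≤ C0) : K ^ j ≤ L :=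
  (pow_le_pow_right₀ (PJ.K1 h) hj).trans h.KL

theorem PJ.L1 (h : PJ C0 K L lam δ Q W a b Y J) : 1 ≤ L := by
  have := PJ.KjL h (Nat.zero_le C0)
  simpa using this

theorem PJ.Ljl (h : PJ C0 K L lam δ Q W a b Y J) {j : ℕ} (hj : j ≤ C0) : L ^ j ≤ lam :=
  (pow_le_pow_right₀ (PJ.L1 h) hj).trans h.Llam

theorem PJ.lam1 (h : PJ C0 K L lam δ Q W a b Y J) : 1 ≤ lam := by
  have := PJ.Ljl h (Nat.zero_le C0)
  simpa using this

theorem PJ.N0 (h : PJ C0 K L lam δ Q W a b Y J) : (0 : ℝ) < #Q := by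
  exact_mod_cast h.neQ.card_pos

theorem PJ.num (h : PJ C0 K L lam δ Q W a b Y J) {j : ℕ} (hj : j ≤ C0) : (2 : ℝ) ^ j ≤ L :=
  (pow_le_pow_left₀ zero_le_two h.two j).trans (PJ.KjL h hj)

open Classical in
/-- (1): many windows contain many points of the strip, transversally. -/
theorem many_windows (h : PJ C0 K L lam δ Q W a b Y J) (c₂ : ℕ) (hC : 9 ≤ C0) (a₀ : ℝ)
    (T : Finset Pt) (hTA : T ⊆ Act K lam Q W Y) (hT : (#Q : ℝ) ≤ L ^ c₂ * #T) :
    lam ^ 2 ≤ L ^ (c₂ + 1) * #{w ∈ W | 1 / L < |a w - a₀| ∧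
      (#Q : ℝ) ≤ L ^ (c₂ + 1) * lam * #{q ∈ T | q ∈ Y w}} := by
  have hK1 := PJ.K1 h
  have hL1 := PJ.L1 h
  have hl1 := PJ.lam1 h
  have hN0 := PJ.N0 h
  have hK0 : 0 < K := by linarith
  have hL0 : 0 < L := by linarith
  have hl0 : 0 < lam := by linarith
  set N : ℝ := ((#Q : ℕ) : ℝ) with hN
  set Wf : Finset ι := {w ∈ W | 1 / L < |a w - a₀|} with hWf
  -- every point of `T` has many far windows
  have hq : ∀ q ∈ T, lam ≤ K ^ 7 * #{w ∈ Wf | q ∈ Y w} := by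
    intro q hqT
    have hqA := hTA hqT
    rw [Act, Finset.mem_filter] at hqA
    obtain ⟨hqQ, hact⟩ := hqA
    have hncx := h.ncx q hqQ a₀
    have hsplit : #{w ∈ W | q ∈ Y w} = #{w ∈ W | q ∈ Y w ∧ |a w - a₀| ≤ 1 / L} +
        #{w ∈ Wf | q ∈ Y w} := by
      rw [← Finset.card_filter_add_card_filter_not (s := {w ∈ W | q ∈ Y w})
        (fun w => |a w - a₀| ≤ 1 / L), Finset.filter_filter, Finset.filter_filter, hWf,
        Finset.filter_filter]
      congr 2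
      ext w
      simp only [Finset.mem_filter, not_le]
      tauto
    have hsplit' : (#{w ∈ W | q ∈ Y w} : ℝ) = #{w ∈ W | q ∈ Y w ∧ |a w - a₀| ≤ 1 / L} +
        #{w ∈ Wf | q ∈ Y w} := by exact_mod_cast hsplit
    rw [hsplit'] at hact
    set n1 : ℝ := (#{w ∈ W | q ∈ Y w ∧ |a w - a₀| ≤ 1 / L} : ℝ)
    set n2 : ℝ := (#{w ∈ Wf | q ∈ Y w} : ℝ)
    have hn1 : 0 ≤ n1 := Nat.cast_nonneg _
    have e1 : K ^ 7 * n1 ≤ lam := le_trans
      (mul_le_mul_of_nonneg_right (pow_le_pow_right₀ hK1 (by omega)) hn1) hncx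
    have e2 : K * lam ≤ K ^ 7 * n1 + K ^ 7 * n2 := by
      calc K * lam ≤ K * (K ^ 6 * (n1 + n2)) := mul_le_mul_of_nonneg_left hact hK0.le
        _ = K ^ 7 * n1 + K ^ 7 * n2 := by ring
    have e3 : 2 * lam ≤ K * lam := mul_le_mul_of_nonneg_right h.two hl0.le
    linarith
  have hdc : ∑ q ∈ T, #{w ∈ Wf | q ∈ Y w} = ∑ w ∈ Wf, #{q ∈ T | q ∈ Y w} :=
    Finset.sum_card_bipartiteAbove_eq_sum_card_bipartiteBelow (fun (q : Pt) (w : ι) => q ∈ Y w)
  have hdc' : ∑ q ∈ T, (#{w ∈ Wf | q ∈ Y w} : ℝ) = ∑ w ∈ Wf, (#{q ∈ T | q ∈ Y w} : ℝ) := by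
    exact_mod_cast hdc
  have h1 : lam * #T ≤ K ^ 7 * ∑ w ∈ Wf, (#{q ∈ T | q ∈ Y w} : ℝ) := by
    rw [← hdc', Finset.mul_sum]
    calc lam * #T = ∑ _q ∈ T, lam := by rw [Finset.sum_const, nsmul_eq_mul, mul_comm]
      _ ≤ _ := Finset.sum_le_sum hq
  set m : ι → ℝ := fun w => (#{q ∈ T | q ∈ Y w} : ℝ) with hm
  set W1 : Finset ι := {w ∈ W | 1 / L < |a w - a₀| ∧ N ≤ L ^ (c₂ + 1) * lam * m w} with hW1
  have hW1' : W1 = {w ∈ Wf | N ≤ L ^ (c₂ + 1) * lam * m w} := by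
    rw [hW1, hWf, Finset.filter_filter]
  have hsum : ∑ w ∈ Wf, m w = ∑ w ∈ W1, m w +
      ∑ w ∈ Wf with ¬ N ≤ L ^ (c₂ + 1) * lam * m w, m w := by
    rw [hW1', Finset.sum_filter_add_sum_filter_not]
  set S1 := ∑ w ∈ W1, m w with hS1
  set S2 := ∑ w ∈ Wf with ¬ N ≤ L ^ (c₂ + 1) * lam * m w, m w with hS2
  have b1 : lam * S1 ≤ #W1 * (K * N) := by
    rw [hS1, Finset.mul_sum]
    calc ∑ w ∈ W1, lam * m w ≤ ∑ _w ∈ W1, K * N := by
          refine Finset.sum_le_sum fun w hw => ?_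
          rw [hW1, Finset.mem_filter] at hw
          have hsub : {q ∈ T | q ∈ Y w} ⊆ Y w := fun q hq => (Finset.mem_filter.1 hq).2
          have hc : m w ≤ #(Y w) := Nat.cast_le.2 (Finset.card_le_card hsub)
          exact (mul_le_mul_of_nonneg_left hc hl0.le).trans (h.cY w hw.1)
      _ = #W1 * (K * N) := by rw [Finset.sum_const, nsmul_eq_mul]
  have b2 : L ^ (c₂ + 1) * lam * S2 ≤ K * lam ^ 2 * N := by
    rw [hS2, Finset.mul_sum]
    calc ∑ w ∈ Wf with ¬ N ≤ L ^ (c₂ + 1) * lam * m w, L ^ (c₂ + 1) * lam * m w ≤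
        ∑ w ∈ Wf with ¬ N ≤ L ^ (c₂ + 1) * lam * m w, N := by
          refine Finset.sum_le_sum fun w hw => ?_
          rw [Finset.mem_filter] at hw
          exact (not_le.1 hw.2).le
      _ ≤ #W * N := by
          rw [Finset.sum_const, nsmul_eq_mul]
          refine mul_le_mul_of_nonneg_right ?_ hN0.le
          have : #{w ∈ Wf | ¬ N ≤ L ^ (c₂ + 1) * lam * m w} ≤ #W :=
            Finset.card_le_card ((Finset.filter_subset _ _).trans (Finset.filter_subset _ _))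
          exact_mod_cast this
      _ ≤ K * lam ^ 2 * N := mul_le_mul_of_nonneg_right h.cW' hN0.le
  rw [hsum] at h1
  have hKL : 2 * K ^ 8 ≤ L := by
    have e1 : K ^ 9 ≤ L := PJ.KjL h hC
    have e2 : 2 * K ^ 8 ≤ K * K ^ 8 := mul_le_mul_of_nonneg_right h.two (by positivity)
    calc 2 * K ^ 8 ≤ K * K ^ 8 := e2
      _ = K ^ 9 := by ring
      _ ≤ L := e1
  have hP : 0 < L ^ c₂ := by positivity
  -- the second sum is negligible
  have b3 : L ^ c₂ * K ^ 7 * S2 ≤ lam * N / 2 := by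
    have e1 : L ^ (c₂ + 1) * lam * S2 * K ^ 7 ≤ K * lam ^ 2 * N * K ^ 7 :=
      mul_le_mul_of_nonneg_right b2 (by positivity)
    have e2 : L * lam * (L ^ c₂ * K ^ 7 * S2) ≤ L * lam * (lam * N / 2) := by
      calc L * lam * (L ^ c₂ * K ^ 7 * S2) = L ^ (c₂ + 1) * lam * S2 * K ^ 7 := by ring
        _ ≤ K * lam ^ 2 * N * K ^ 7 := e1
        _ = 2 * K ^ 8 * (lam ^ 2 * N / 2) := by ring
        _ ≤ L * (lam ^ 2 * N / 2) := mul_le_mul_of_nonneg_right hKL (by positivity)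
        _ = L * lam * (lam * N / 2) := by ring
    exact le_of_mul_le_mul_left e2 (by positivity)
  have b4 : lam * N ≤ L ^ c₂ * K ^ 7 * S1 + L ^ c₂ * K ^ 7 * S2 := by
    calc lam * N ≤ lam * (L ^ c₂ * #T) := mul_le_mul_of_nonneg_left hT hl0.le
      _ = L ^ c₂ * (lam * #T) := by ring
      _ ≤ L ^ c₂ * (K ^ 7 * (S1 + S2)) := mul_le_mul_of_nonneg_left h1 hP.le
      _ = _ := by ring
  have b5 : lam * N / 2 ≤ L ^ c₂ * K ^ 7 * S1 := by linarith
  have b6 : lam ^ 2 * N ≤ L ^ (c₂ + 1) * #W1 * N := by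
    calc lam ^ 2 * N = 2 * lam * (lam * N / 2) := by ring
      _ ≤ 2 * lam * (L ^ c₂ * K ^ 7 * S1) := mul_le_mul_of_nonneg_left b5 (by positivity)
      _ = 2 * (L ^ c₂ * K ^ 7) * (lam * S1) := by ring
      _ ≤ 2 * (L ^ c₂ * K ^ 7) * (#W1 * (K * N)) :=
          mul_le_mul_of_nonneg_left b1 (by positivity)
      _ = 2 * K ^ 8 * (L ^ c₂ * #W1 * N) := by ring
      _ ≤ L * (L ^ c₂ * #W1 * N) := mul_le_mul_of_nonneg_right hKL (by positivity)
      _ = L ^ (c₂ + 1) * #W1 * N := by ring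
  exact le_of_mul_le_mul_right b6 hN0

/-- the closed box number `k` of the strip -/
noncomputable def bx (a₀ v₀ θ ℓ : ℝ) (k : ℤ) : Finset (ℝ × ℝ × ℝ) :=
  {(-1, 0, -(k * ℓ)), (1, 0, (k + 2) * ℓ), (-a₀, 1, v₀ + θ), (a₀, -1, -v₀ + θ)}

theorem pol_bx (a₀ v₀ θ ℓ : ℝ) (k : ℤ) (v : Pt) :
    Pol (bx a₀ v₀ θ ℓ k) v ↔
      (k * ℓ ≤ v.1 ∧ v.1 ≤ (k + 2) * ℓ) ∧ |v.2 - a₀ * v.1 - v₀| ≤ θ := by
  unfold Pol bx
  simp only [Finset.mem_insert, Finset.mem_singleton, forall_eq_or_imp, forall_eq]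
  rw [abs_le]
  constructor
  · rintro ⟨h1, h2, h3, h4⟩
    refine ⟨⟨?_, ?_⟩, ?_, ?_⟩ <;> linarith
  · rintro ⟨⟨h1, h2⟩, h3, h4⟩
    refine ⟨?_, ?_, ?_, ?_⟩ <;> linarith

theorem card_bx (a₀ v₀ θ ℓ : ℝ) (k : ℤ) : #(bx a₀ v₀ θ ℓ k) ≤ 8 := by
  unfold bx
  refine le_trans Finset.card_le_four (by norm_num)

open Classical in
/-- (2): one box of the strip meets many windows. -/
theorem one_box (h : PJ C0 K L lam δ Q W a b Y J) (c₂ : ℕ) (hC : c₂ + 9 ≤ C0) (a₀ v₀ θ : ℝ)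
    (hθ : δ ≤ θ) (T : Finset Pt) (hTA : T ⊆ Act K lam Q W Y)
    (hTs : ∀ q ∈ T, |q.2 - a₀ * q.1 - v₀| ≤ θ) (hT : (#Q : ℝ) ≤ L ^ c₂ * #T) :
    ∃ (k : ℤ) (W' : Finset ι), W' ⊆ W ∧
      (∀ w ∈ W', ∃ p ∈ Y w, (k * (10 * L * θ) ≤ p.1 ∧ p.1 ≤ (k + 2) * (10 * L * θ)) ∧
        |p.2 - a₀ * p.1 - v₀| ≤ θ) ∧
      lam ^ 2 ≤ L ^ (6 * c₂ + 7) * #W' := by
  have hK1 := PJ.K1 h
  have hL1 := PJ.L1 h
  have hl1 := PJ.lam1 h
  have hN0 := PJ.N0 h
  have hL0 : 0 < L := by linarith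
  have hl0 : 0 < lam := by linarith
  have hδ := h.dpos
  have hθ0 : 0 < θ := by linarith
  set ℓ : ℝ := 10 * L * θ with hℓ
  have hℓ0 : 0 < ℓ := by positivity
  have hmany := many_windows h c₂ (by omega) a₀ T hTA hT
  set W1 : Finset ι := {w ∈ W | 1 / L < |a w - a₀| ∧
      (#Q : ℝ) ≤ L ^ (c₂ + 1) * lam * #{q ∈ T | q ∈ Y w}} with hW1
  set N : ℝ := ((#Q : ℕ) : ℝ) with hN
  have hW1ne : W1.Nonempty := by
    rw [Finset.nonempty_iff_ne_empty]
    intro he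
    rw [he] at hmany
    simp only [Finset.card_empty, Nat.cast_zero, mul_zero] at hmany
    nlinarith
  -- the index of the box
  have hidx : ∀ w : ι, ∃ k : ℤ, w ∈ W1 → ∀ p ∈ T, p ∈ Y w →
      k * ℓ ≤ p.1 ∧ p.1 ≤ (k + 2) * ℓ := by
    intro w
    by_cases hw : w ∈ W1
    · have hw' := hw
      rw [hW1, Finset.mem_filter] at hw'
      obtain ⟨hwW, hfar, hcnt⟩ := hw'
      have hne : ({q ∈ T | q ∈ Y w} : Finset Pt).Nonempty := by
        rw [Finset.nonempty_iff_ne_empty]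
        intro he
        rw [he] at hcnt
        simp only [Finset.card_empty, Nat.cast_zero, mul_zero] at hcnt
        linarith
      obtain ⟨p₀, hp₀, hmin⟩ := Finset.exists_min_image _ (fun p : Pt => p.1) hne
      rw [Finset.mem_filter] at hp₀
      refine ⟨⌊p₀.1 / ℓ⌋, fun _ p hpT hpY => ?_⟩
      have hle := hmin p (Finset.mem_filter.2 ⟨hpT, hpY⟩)
      have t1 := h.tube w hwW p hpY
      have t2 := h.tube w hwW p₀ hp₀.2
      have t3 := hTs p hpT
      have t4 := hTs p₀ hp₀.1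
      have hd : |(a w - a₀) * (p.1 - p₀.1)| ≤ 10 * θ := by
        rw [abs_le] at t1 t2 t3 t4 ⊢
        constructor <;> nlinarith [t1.1, t1.2, t2.1, t2.2, t3.1, t3.2, t4.1, t4.2]
      have hd2 : p.1 - p₀.1 ≤ ℓ := by
        rw [abs_mul, abs_of_nonneg (sub_nonneg.2 hle)] at hd
        have hx0 : 0 ≤ p.1 - p₀.1 := sub_nonneg.2 hle
        have e1 : 1 / L * (p.1 - p₀.1) ≤ 10 * θ :=
          (mul_le_mul_of_nonneg_right hfar.le hx0).trans hd
        rw [hℓ]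
        calc p.1 - p₀.1 = L * (1 / L * (p.1 - p₀.1)) := by field_simp
          _ ≤ L * (10 * θ) := mul_le_mul_of_nonneg_left e1 hL0.le
          _ = 10 * L * θ := by ring
      have f1 := Int.floor_le (p₀.1 / ℓ)
      have f2 := Int.lt_floor_add_one (p₀.1 / ℓ)
      rw [le_div_iff₀ hℓ0] at f1
      rw [div_lt_iff₀ hℓ0] at f2
      constructor
      · linarith
      · have : (⌊p₀.1 / ℓ⌋ + 2 : ℝ) * ℓ = (⌊p₀.1 / ℓ⌋ + 1 : ℝ) * ℓ + ℓ := by ring
        linarith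
    · exact ⟨0, fun h => absurd h hw⟩
  choose f hf using hidx
  set n : ℤ → ℝ := fun k => (#{p ∈ Q | Pol (bx a₀ v₀ θ ℓ k) p} : ℝ) with hn
  have hpig := pigeon W1 f n (L ^ (2 * c₂ + 2) * lam) 3 N (by positivity) hN0
    (fun k => Nat.cast_nonneg _) ?_ ?_ hW1ne
  · obtain ⟨k, hk⟩ := hpig
    refine ⟨k, {w ∈ W1 | f w = k}, ?_, ?_, ?_⟩
    · exact (Finset.filter_subset _ _).trans (Finset.filter_subset _ _)
    · intro w hw
      rw [Finset.mem_filter] at hw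
      have hw1 := hw.1
      rw [hW1, Finset.mem_filter] at hw1
      obtain ⟨hwW, hfar, hcnt⟩ := hw1
      have hne : ({q ∈ T | q ∈ Y w} : Finset Pt).Nonempty := by
        rw [Finset.nonempty_iff_ne_empty]
        intro he
        rw [he] at hcnt
        simp only [Finset.card_empty, Nat.cast_zero, mul_zero] at hcnt
        linarith
      obtain ⟨p, hp⟩ := hne
      rw [Finset.mem_filter] at hp
      refine ⟨p, hp.2, ?_, hTs p hp.1⟩
      have := hf w hw.1 p hp.1 hp.2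
      rw [hw.2] at this
      exact this
    · set M : ℝ := (#{w ∈ W1 | f w = k} : ℝ) with hM
      have hM0 : 0 ≤ M := Nat.cast_nonneg _
      have e1 : lam ^ 2 * lam ^ 2 ≤ lam ^ 2 * (L ^ (6 * c₂ + 7) * M) := by
        calc lam ^ 2 * lam ^ 2 ≤ (L ^ (c₂ + 1) * #W1) * (L ^ (c₂ + 1) * #W1) :=
              mul_le_mul hmany hmany (by positivity) (by positivity)
          _ = L ^ (2 * c₂ + 2) * (#W1 : ℝ) ^ 2 := by ring
          _ ≤ L ^ (2 * c₂ + 2) * ((L ^ (2 * c₂ + 2) * lam * 3) ^ 2 * M) :=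
              mul_le_mul_of_nonneg_left hk (by positivity)
          _ = 9 * (L ^ (6 * c₂ + 6) * lam ^ 2 * M) := by ring
          _ ≤ L * (L ^ (6 * c₂ + 6) * lam ^ 2 * M) := by
              refine mul_le_mul_of_nonneg_right ?_ (by positivity)
              have := PJ.num h (j := 4) (by omega)
              norm_num at this
              linarith
          _ = lam ^ 2 * (L ^ (6 * c₂ + 7) * M) := by ring
      exact le_of_mul_le_mul_left e1 (by positivity)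
  · -- `star` in a box
    intro k
    have hstar := h.star (bx a₀ v₀ θ ℓ k) (card_bx _ _ _ _ _)
    set M : ι → ℝ := fun w => (#{p ∈ Y w | Pol (bx a₀ v₀ θ ℓ k) p} : ℝ) with hM
    have hM0 : ∀ w, 0 ≤ M w := fun w => Nat.cast_nonneg _
    have hin : ∀ w ∈ W1, f w = k → N ≤ L ^ (c₂ + 1) * lam * M w := by
      intro w hw hfw
      have hw1 := hw
      rw [hW1, Finset.mem_filter] at hw1
      refine hw1.2.2.trans (mul_le_mul_of_nonneg_left ?_ (by positivity))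
      have hsub : {q ∈ T | q ∈ Y w} ⊆ {p ∈ Y w | Pol (bx a₀ v₀ θ ℓ k) p} := by
        intro p hp
        rw [Finset.mem_filter] at hp ⊢
        refine ⟨hp.2, (pol_bx _ _ _ _ _ _).2 ⟨?_, hTs p hp.1⟩⟩
        have := hf w hw p hp.1 hp.2
        rwa [hfw] at this
      exact Nat.cast_le.2 (Finset.card_le_card hsub)
    have hsum : (#{w ∈ W1 | f w = k} : ℝ) * N ^ 3 ≤
        (L ^ (c₂ + 1) * lam) ^ 3 * (L * (N / lam) * n k ^ 2) := by
      calc (#{w ∈ W1 | f w = k} : ℝ) * N ^ 3 = ∑ _w ∈ W1 with f _w = k, N ^ 3 := by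
            rw [Finset.sum_const, nsmul_eq_mul]
        _ ≤ ∑ w ∈ W1 with f w = k, (L ^ (c₂ + 1) * lam) ^ 3 * M w ^ 3 := by
            refine Finset.sum_le_sum fun w hw => ?_
            rw [Finset.mem_filter] at hw
            rw [← mul_pow]
            exact pow_le_pow_left₀ hN0.le (hin w hw.1 hw.2) 3
        _ = (L ^ (c₂ + 1) * lam) ^ 3 * ∑ w ∈ W1 with f w = k, M w ^ 3 := by
            rw [Finset.mul_sum]
        _ ≤ (L ^ (c₂ + 1) * lam) ^ 3 * (L * (N / lam) * n k ^ 2) := by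
            refine mul_le_mul_of_nonneg_left (le_trans ?_ hstar) (by positivity)
            refine Finset.sum_le_sum_of_subset_of_nonneg ?_ fun w _ _ => pow_nonneg (hM0 w) 3
            intro w hw
            rw [Finset.mem_filter] at hw ⊢
            have hw1 := hw.1
            rw [hW1, Finset.mem_filter] at hw1
            refine ⟨hw1.1, (hin w hw.1 hw.2).trans ?_⟩
            refine mul_le_mul_of_nonneg_right ?_ (hM0 w)
            have e1 : L ^ (c₂ + 1) ≤ L ^ C0 := pow_le_pow_right₀ hL1 (by omega)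
            have e2 : lam ≤ lam ^ 2 := by nlinarith
            exact mul_le_mul e1 e2 hl0.le (by positivity)
    have e1 : N * ((#{w ∈ W1 | f w = k} : ℝ) * N ^ 2) ≤
        N * (L ^ (2 * c₂ + 2) * lam * n k) ^ 2 := by
      calc N * ((#{w ∈ W1 | f w = k} : ℝ) * N ^ 2) = (#{w ∈ W1 | f w = k} : ℝ) * N ^ 3 := by ring
        _ ≤ (L ^ (c₂ + 1) * lam) ^ 3 * (L * (N / lam) * n k ^ 2) := hsum
        _ = L ^ (3 * c₂ + 4) * (lam ^ 2 * N * n k ^ 2) := by field_simp; ring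
        _ ≤ L ^ (4 * c₂ + 4) * (lam ^ 2 * N * n k ^ 2) :=
            mul_le_mul_of_nonneg_right (pow_le_pow_right₀ hL1 (by omega)) (by positivity)
        _ = N * (L ^ (2 * c₂ + 2) * lam * n k) ^ 2 := by ring
    exact le_of_mul_le_mul_left e1 hN0
  · -- overlap of the boxes
    have h3 := sum_count Q (W1.image f) (fun k p => Pol (bx a₀ v₀ θ ℓ k) p) 3 ?_
    · rw [Nat.cast_ofNat] at h3
      exact h3
    · intro p _
      refine card_le_three _ _ (⌊p.1 / ℓ⌋ - 1) fun k _ hk => ?_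
      rw [pol_bx] at hk
      obtain ⟨⟨k1, k2⟩, -⟩ := hk
      have e1 : k ≤ ⌊p.1 / ℓ⌋ := Int.le_floor.2 ((le_div_iff₀ hℓ0).2 k1)
      have e2 : ⌊p.1 / ℓ⌋ ≤ k + 2 := by
        have : p.1 / ℓ ≤ ((k + 2 : ℤ) : ℝ) := by
          push_cast
          rwa [div_le_iff₀ hℓ0]
        exact Int.floor_le_iff.2 (by push_cast; push_cast at this; linarith)
      omega

open Classical in
/-- pairs of `J w` far from the abscissa `x` -/
theorem far_pairs (h : PJ C0 K L lam δ Q W a b Y J) (hC : 4 ≤ C0) (x : ℝ) {w : ι} (hw : w ∈ W) :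
    (#Q : ℝ) ^ 2 ≤ K ^ 2 * lam ^ 2 *
      #{e ∈ J w | 1 / L < |e.1.1 - x| ∧ 1 / L < |e.2.1 - x|} := by
  have hK1 := PJ.K1 h
  have hL1 := PJ.L1 h
  have hl1 := PJ.lam1 h
  have hN0 := PJ.N0 h
  have hK0 : 0 < K := by linarith
  have hl0 : 0 < lam := by linarith
  set N : ℝ := ((#Q : ℕ) : ℝ) with hN
  set S : Finset Pt := {p ∈ Y w | |p.1 - x| ≤ 1 / L} with hS
  have hsub : J w ⊆ {e ∈ J w | 1 / L < |e.1.1 - x| ∧ 1 / L < |e.2.1 - x|} ∪
      (S ×ˢ Y w ∪ Y w ×ˢ S) := by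
    intro e he
    have hY := h.subJ w hw e he
    by_cases h1 : 1 / L < |e.1.1 - x|
    · by_cases h2 : 1 / L < |e.2.1 - x|
      · exact Finset.mem_union_left _ (Finset.mem_filter.2 ⟨he, h1, h2⟩)
      · refine Finset.mem_union_right _ (Finset.mem_union_right _ ?_)
        exact Finset.mem_product.2 ⟨hY.1, Finset.mem_filter.2 ⟨hY.2, not_lt.1 h2⟩⟩
    · refine Finset.mem_union_right _ (Finset.mem_union_left _ ?_)
      exact Finset.mem_product.2 ⟨Finset.mem_filter.2 ⟨hY.1, not_lt.1 h1⟩, hY.2⟩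
  have hcard : (#(J w) : ℝ) ≤ #{e ∈ J w | 1 / L < |e.1.1 - x| ∧ 1 / L < |e.2.1 - x|} +
      (#S * #(Y w) + #(Y w) * #S) := by
    have h1 := (Finset.card_le_card hsub).trans (Finset.card_union_le _ _)
    have h2 := Finset.card_union_le (S ×ˢ Y w) (Y w ×ˢ S)
    rw [Finset.card_product, Finset.card_product] at h2
    have h3 := h1.trans (Nat.add_le_add_left h2 _)
    exact_mod_cast h3
  set F : ℝ := (#{e ∈ J w | 1 / L < |e.1.1 - x| ∧ 1 / L < |e.2.1 - x|} : ℝ) with hF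
  have hS1 : K ^ C0 * lam * #S ≤ N := h.ncu w hw x
  have hY1 : lam * #(Y w) ≤ K * N := h.cY w hw
  have hS0 : (0 : ℝ) ≤ #S := Nat.cast_nonneg _
  have hY0 : (0 : ℝ) ≤ #(Y w) := Nat.cast_nonneg _
  have hJ1 := h.cJ w hw
  -- `4 K ^ 2 ≤ K ^ C0`
  have hK4 : 4 * K ^ 2 ≤ K ^ C0 := by
    have e1 : K ^ 4 ≤ K ^ C0 := pow_le_pow_right₀ hK1 hC
    have e2 : 4 ≤ K ^ 2 := by nlinarith [h.two]
    nlinarith
  -- the near pairs
  have e1 : K ^ C0 * (lam ^ 2 * (#S * #(Y w))) ≤ K * N ^ 2 := by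
    calc K ^ C0 * (lam ^ 2 * (#S * #(Y w))) = (K ^ C0 * lam * #S) * (lam * #(Y w)) := by ring
      _ ≤ N * (K * N) := mul_le_mul hS1 hY1 (by positivity) hN0.le
      _ = K * N ^ 2 := by ring
  have e2 : 4 * K ^ 2 * (lam ^ 2 * (#S * #(Y w))) ≤ K * N ^ 2 :=
    (mul_le_mul_of_nonneg_right hK4 (by positivity)).trans e1
  have e3 : 4 * (K * lam ^ 2 * (#S * #(Y w))) ≤ N ^ 2 := by
    have : K * (4 * (K * lam ^ 2 * (#S * #(Y w)))) ≤ K * N ^ 2 := by
      calc K * (4 * (K * lam ^ 2 * (#S * #(Y w)))) = 4 * K ^ 2 * (lam ^ 2 * (#S * #(Y w))) := by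
            ring
        _ ≤ K * N ^ 2 := e2
    exact le_of_mul_le_mul_left this hK0
  have e4 : N ^ 2 ≤ K * lam ^ 2 * F + 2 * (K * lam ^ 2 * (#S * #(Y w))) := by
    calc N ^ 2 ≤ K * lam ^ 2 * #(J w) := hJ1
      _ ≤ K * lam ^ 2 * (F + (#S * #(Y w) + #(Y w) * #S)) :=
          mul_le_mul_of_nonneg_left hcard (by positivity)
      _ = _ := by ring
  have e5 : N ^ 2 ≤ 2 * (K * lam ^ 2 * F) := by linarith
  calc N ^ 2 ≤ 2 * (K * lam ^ 2 * F) := e5
    _ ≤ K * (K * lam ^ 2 * F) := mul_le_mul_of_nonneg_right h.two (by positivity)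
    _ = K ^ 2 * lam ^ 2 * F := by ring

open Classical in
/-- `δ`-separated slopes in an interval -/
theorem card_sep (h : PJ C0 K L lam δ Q W a b Y J) (V : Finset ι) (hV : V ⊆ W) (u s : ℝ)
    (hs : 2 * δ ≤ s) (hVs : ∀ w ∈ V, u ≤ a w ∧ a w ≤ u + s) :
    δ * #V ≤ 2 * s := by
  have hδ := h.dpos
  have hinj : Set.InjOn (fun w => ⌊a w / δ⌋) (V : Set ι) := by
    intro w hw w' hw' he
    by_contra hne
    have h1 := h.sepa w (hV hw) w' (hV hw') hne
    have h2 : ⌊a w / δ⌋ = ⌊a w' / δ⌋ := he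
    have h3 := Int.abs_sub_lt_one_of_floor_eq_floor h2
    rw [← sub_div, abs_div, abs_of_pos hδ, div_lt_one hδ] at h3
    linarith
  have hmaps : ∀ w ∈ V, (fun w => ⌊a w / δ⌋) w ∈ Finset.Icc ⌊u / δ⌋ ⌊(u + s) / δ⌋ := by
    intro w hw
    obtain ⟨h1, h2⟩ := hVs w hw
    exact Finset.mem_Icc.2 ⟨Int.floor_le_floor (div_le_div_of_nonneg_right h1 hδ.le),
      Int.floor_le_floor (div_le_div_of_nonneg_right h2 hδ.le)⟩
  have h1 := Finset.card_le_card_of_injOn _ hmaps hinj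
  rw [Int.card_Icc] at h1
  have h2 : ((⌊(u + s) / δ⌋ + 1 - ⌊u / δ⌋).toNat : ℝ) ≤ s / δ + 2 := by
    have h3 : (⌊(u + s) / δ⌋ + 1 - ⌊u / δ⌋ : ℝ) ≤ s / δ + 2 := by
      have f1 := Int.floor_le ((u + s) / δ)
      have f2 := Int.lt_floor_add_one (u / δ)
      rw [add_div] at f1
      rw [add_div]
      linarith
    have h4 : (((⌊(u + s) / δ⌋ + 1 - ⌊u / δ⌋).toNat : ℤ) : ℝ) =
        ((max (⌊(u + s) / δ⌋ + 1 - ⌊u / δ⌋) 0 : ℤ) : ℝ) := by rw [Int.toNat_eq_max]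
    have h5 : ((⌊(u + s) / δ⌋ + 1 - ⌊u / δ⌋).toNat : ℝ) =
        (((⌊(u + s) / δ⌋ + 1 - ⌊u / δ⌋).toNat : ℤ) : ℝ) := by norm_cast
    rw [h5, h4]
    push_cast
    refine max_le h3 ?_
    have : 0 ≤ s / δ := div_nonneg (by linarith) hδ.le
    linarith
  have h3 : (#V : ℝ) ≤ s / δ + 2 := le_trans (by exact_mod_cast h1) h2
  calc δ * #V ≤ δ * (s / δ + 2) := mul_le_mul_of_nonneg_left h3 hδ.le
    _ = s + 2 * δ := by field_simp
    _ ≤ 2 * s := by linarith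

/-- far points of the windows of class `k` -/
def Uc (L s : ℝ) (W' : Finset ι) (a : ι → ℝ) (Y : ι → Finset Pt) (x₀ : ℝ) (k : ℤ) (x : Pt) : Prop :=
  1 / L < |x.1 - x₀| ∧ ∃ w ∈ W', ⌊a w / s⌋ = k ∧ x ∈ Y w

open Classical in
/-- (3), (4): many windows through a small neighbourhood of a point. -/
theorem pencil (h : PJ C0 K L lam δ Q W a b Y J) (e : ℕ) (hC : 7 ≤ C0) (x₀ : Pt) (D : ℝ)
    (hD : 0 ≤ D) (W' : Finset ι) (hW' : W' ⊆ W)
    (hx : ∀ w ∈ W', |x₀.2 - a w * x₀.1 - b w| ≤ D) (hcard : lam ^ 2 ≤ L ^ e * #W') :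
    δ * lam ^ 2 ≤ L ^ (2 * e + 1) * (4 * L * (D + 4 * δ)) := by
  have hK1 := PJ.K1 h
  have hL1 := PJ.L1 h
  have hl1 := PJ.lam1 h
  have hN0 := PJ.N0 h
  have hK0 : 0 < K := by linarith
  have hL0 : 0 < L := by linarith
  have hl0 : 0 < lam := by linarith
  have hδ := h.dpos
  set N : ℝ := ((#Q : ℕ) : ℝ) with hN
  set s : ℝ := 2 * L * (D + 4 * δ) with hs
  have hs0 : 0 < s := by positivity
  have hW'ne : W'.Nonempty := by
    rw [Finset.nonempty_iff_ne_empty]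
    intro he
    rw [he] at hcard
    simp only [Finset.card_empty, Nat.cast_zero, mul_zero] at hcard
    nlinarith
  have hpig := pigeon W' (fun w => ⌊a w / s⌋)
    (fun k => (#{x ∈ Q | Uc L s W' a Y x₀.1 k x} : ℝ)) (K * lam) 3 N
    (by positivity) hN0 (fun k => Nat.cast_nonneg _) ?_ ?_ hW'ne
  · obtain ⟨k, hk⟩ := hpig
    set M : ℝ := (#{w ∈ W' | ⌊a w / s⌋ = k} : ℝ) with hM
    have hM0 : 0 ≤ M := Nat.cast_nonneg _
    have hsep : δ * M ≤ 2 * s := by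
      refine card_sep h _ ((Finset.filter_subset _ _).trans hW') (k * s) s ?_ ?_
      · rw [hs]
        nlinarith
      · intro w hw
        rw [Finset.mem_filter] at hw
        have f1 := Int.floor_le (a w / s)
        have f2 := Int.lt_floor_add_one (a w / s)
        rw [hw.2] at f1 f2
        rw [le_div_iff₀ hs0] at f1
        rw [div_lt_iff₀ hs0] at f2
        constructor
        · exact f1
        · linarith
    have e1 : lam ^ 2 * lam ^ 2 ≤ lam ^ 2 * (L ^ (2 * e + 1) * M) := by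
      calc lam ^ 2 * lam ^ 2 ≤ (L ^ e * #W') * (L ^ e * #W') :=
            mul_le_mul hcard hcard (by positivity) (by positivity)
        _ = L ^ (2 * e) * (#W' : ℝ) ^ 2 := by ring
        _ ≤ L ^ (2 * e) * ((K * lam * 3) ^ 2 * M) :=
            mul_le_mul_of_nonneg_left hk (by positivity)
        _ = (9 * K ^ 2) * (L ^ (2 * e) * lam ^ 2 * M) := by ring
        _ ≤ L * (L ^ (2 * e) * lam ^ 2 * M) := by
            refine mul_le_mul_of_nonneg_right ?_ (by positivity)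
            have e1 : K ^ 6 ≤ L := PJ.KjL h (by omega)
            have e2 : (16 : ℝ) ≤ K ^ 4 := by
              have := pow_le_pow_left₀ (zero_le_two) h.two 4
              norm_num at this
              exact this
            have e3 : 0 ≤ K ^ 2 := by positivity
            calc 9 * K ^ 2 ≤ K ^ 4 * K ^ 2 := mul_le_mul_of_nonneg_right (by linarith) e3
              _ = K ^ 6 := by ring
              _ ≤ L := e1
        _ = lam ^ 2 * (L ^ (2 * e + 1) * M) := by ring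
    have e2 : lam ^ 2 ≤ L ^ (2 * e + 1) * M := le_of_mul_le_mul_left e1 (by positivity)
    calc δ * lam ^ 2 ≤ δ * (L ^ (2 * e + 1) * M) := mul_le_mul_of_nonneg_left e2 hδ.le
      _ = L ^ (2 * e + 1) * (δ * M) := by ring
      _ ≤ L ^ (2 * e + 1) * (2 * s) := mul_le_mul_of_nonneg_left hsep (by positivity)
      _ = L ^ (2 * e + 1) * (4 * L * (D + 4 * δ)) := by rw [hs]; ring
  · -- disjoint sets of pairs
    intro k
    set V : Finset ι := {w ∈ W' | ⌊a w / s⌋ = k} with hV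
    set Jf : ι → Finset (Pt × Pt) := fun w =>
      {e ∈ J w | 1 / L < |e.1.1 - x₀.1| ∧ 1 / L < |e.2.1 - x₀.1|} with hJf
    set R : Finset Pt := {x ∈ Q | Uc L s W' a Y x₀.1 k x} with hR
    have hdis : (V : Set ι).PairwiseDisjoint Jf := by
      intro w hw w' hw' hne
      have h1 := h.disJ w (hW' (Finset.mem_filter.1 hw).1) w' (hW' (Finset.mem_filter.1 hw').1) hne
      exact Finset.disjoint_of_subset_left (Finset.filter_subset _ _)
        (Finset.disjoint_of_subset_right (Finset.filter_subset _ _) h1)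
    have hsub : V.biUnion Jf ⊆ R ×ˢ R := by
      intro p hp
      rw [Finset.mem_biUnion] at hp
      obtain ⟨w, hw, hp⟩ := hp
      rw [hJf, Finset.mem_filter] at hp
      rw [hV, Finset.mem_filter] at hw
      have hwW := hW' hw.1
      have hY := h.subJ w hwW p hp.1
      have hQ := h.subY w hwW
      exact Finset.mem_product.2 ⟨Finset.mem_filter.2 ⟨hQ hY.1, hp.2.1, w, hw.1, hw.2, hY.1⟩,
        Finset.mem_filter.2 ⟨hQ hY.2, hp.2.2, w, hw.1, hw.2, hY.2⟩⟩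
    have hcd : ∑ w ∈ V, (#(Jf w) : ℝ) ≤ (#R : ℝ) ^ 2 := by
      have h1 := Finset.card_le_card hsub
      rw [Finset.card_biUnion hdis, Finset.card_product] at h1
      have h2 : ((∑ w ∈ V, #(Jf w) : ℕ) : ℝ) ≤ ((#R * #R : ℕ) : ℝ) := by exact_mod_cast h1
      push_cast at h2
      rw [pow_two]
      exact h2
    change (#V : ℝ) * N ^ 2 ≤ _
    calc (#V : ℝ) * N ^ 2 = ∑ _w ∈ V, N ^ 2 := by rw [Finset.sum_const, nsmul_eq_mul]
      _ ≤ ∑ w ∈ V, K ^ 2 * lam ^ 2 * #(Jf w) := by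
          refine Finset.sum_le_sum fun w hw => ?_
          exact far_pairs h (by omega) x₀.1 (hW' (Finset.mem_filter.1 hw).1)
      _ = K ^ 2 * lam ^ 2 * ∑ w ∈ V, (#(Jf w) : ℝ) := by rw [Finset.mul_sum]
      _ ≤ K ^ 2 * lam ^ 2 * (#R : ℝ) ^ 2 := mul_le_mul_of_nonneg_left hcd (by positivity)
      _ = (K * lam * #R) ^ 2 := by ring
  · -- a far point lies in at most three classes
    have h3 := sum_count Q (W'.image fun w => ⌊a w / s⌋) (Uc L s W' a Y x₀.1) 3 ?_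
    · rw [Nat.cast_ofNat] at h3
      exact h3
    · intro x _
      by_cases hne : ∃ k, Uc L s W' a Y x₀.1 k x
      · obtain ⟨k₁, hfar, w₁, hw₁, hk₁, hx₁⟩ := hne
        refine card_le_three _ _ k₁ fun k _ hk => ?_
        obtain ⟨-, w, hw, hk, hxw⟩ := hk
        have t1 := h.tube w (hW' hw) x hxw
        have t2 := h.tube w₁ (hW' hw₁) x hx₁
        have t3 := hx w hw
        have t4 := hx w₁ hw₁
        have hd : |(a w - a w₁) * (x.1 - x₀.1)| ≤ 2 * (D + 4 * δ) := by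
          rw [abs_le] at t1 t2 t3 t4 ⊢
          constructor <;> nlinarith [t1.1, t1.2, t2.1, t2.2, t3.1, t3.2, t4.1, t4.2]
        have hd2 : |a w - a w₁| ≤ s := by
          rw [abs_mul] at hd
          have e1 : |a w - a w₁| * (1 / L) ≤ 2 * (D + 4 * δ) :=
            (mul_le_mul_of_nonneg_left hfar.le (abs_nonneg _)).trans hd
          calc |a w - a w₁| = L * (|a w - a w₁| * (1 / L)) := by field_simp
            _ ≤ L * (2 * (D + 4 * δ)) := mul_le_mul_of_nonneg_left e1 hL0.le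
            _ = s := by rw [hs]; ring
        have hd3 : |a w / s - a w₁ / s| ≤ 1 := by
          rw [← sub_div, abs_div, abs_of_pos hs0, div_le_one hs0]
          exact hd2
        rw [abs_le] at hd3
        have f1 := Int.floor_le (a w / s)
        have f2 := Int.lt_floor_add_one (a w / s)
        have f3 := Int.floor_le (a w₁ / s)
        have f4 := Int.lt_floor_add_one (a w₁ / s)
        rw [hk] at f1 f2
        rw [hk₁] at f3 f4
        have g1 : (k : ℝ) < k₁ + 2 := by linarith [hd3.2]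
        have g2 : (k₁ : ℝ) < k + 2 := by linarith [hd3.1]
        have g1' : k < k₁ + 2 := by exact_mod_cast g1
        have g2' : k₁ < k + 2 := by exact_mod_cast g2
        omega
      · rw [Finset.filter_false_of_mem fun k _ hk => hne ⟨k, hk⟩]
        simp

/-- **[DIM]** -/
theorem stDim : StDim := by
  intro c₂
  refine ⟨12 * c₂ + 20, c₂ + 9, ?_⟩
  intro C0 hC K L lam δ Q ι W a b Y J h a₀ v₀ θ ha₀ hθ hT
  have hL1 := PJ.L1 h
  have hL0 : 0 < L := by linarith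
  have hδ := h.dpos
  have hθ0 : 0 < θ := by linarith
  obtain ⟨k, W', hW', hbox, hcard⟩ := one_box h c₂ hC a₀ v₀ θ hθ _ (Finset.filter_subset _ _)
    (fun q hq => (Finset.mem_filter.1 hq).2) hT
  set ℓ : ℝ := 10 * L * θ with hℓ
  have hL9 : (512 : ℝ) ≤ L := by
    have := PJ.num h (j := 9) (by omega)
    norm_num at this
    exact this
  have hx : ∀ w ∈ W', |(a₀ * (k * ℓ) + v₀) - a w * (k * ℓ) - b w| ≤ L ^ 3 * θ := by
    intro w hw
    obtain ⟨p, hpY, ⟨hp1, hp2⟩, hp3⟩ := hbox w hw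
    have t1 := h.tube w (hW' hw) p hpY
    have t2 := h.slope w (hW' hw)
    have e1 : (a₀ * (k * ℓ) + v₀) - a w * (k * ℓ) - b w =
        (p.2 - a w * p.1 - b w) - (p.2 - a₀ * p.1 - v₀) - (a₀ - a w) * (p.1 - k * ℓ) := by ring
    have e2 : |p.1 - k * ℓ| ≤ 2 * ℓ := by
      rw [abs_le]
      constructor <;> linarith
    have e3 : |a₀ - a w| ≤ 3 * L + 1 := by
      rw [abs_le] at ha₀ ⊢
      constructor <;> linarith [ha₀.1, ha₀.2, t2.1, t2.2]
    have e4 : |(a₀ - a w) * (p.1 - k * ℓ)| ≤ (3 * L + 1) * (2 * ℓ) := by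
      rw [abs_mul]
      exact mul_le_mul e3 e2 (abs_nonneg _) (by positivity)
    rw [e1]
    have e5 : |(p.2 - a w * p.1 - b w) - (p.2 - a₀ * p.1 - v₀) - (a₀ - a w) * (p.1 - k * ℓ)| ≤
        |p.2 - a w * p.1 - b w| + |p.2 - a₀ * p.1 - v₀| + |(a₀ - a w) * (p.1 - k * ℓ)| :=
      (abs_sub _ _).trans (add_le_add_left (abs_sub _ _) _)
    refine e5.trans ?_
    have e6 : 4 * δ + θ + (3 * L + 1) * (2 * ℓ) ≤ L ^ 3 * θ := by
      have e7 : 4 * δ + θ + (3 * L + 1) * (2 * ℓ) ≤ (5 + (3 * L + 1) * (20 * L)) * θ := by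
        rw [hℓ]
        nlinarith
      refine e7.trans (mul_le_mul_of_nonneg_right ?_ hθ0.le)
      nlinarith [mul_nonneg hL0.le hL0.le]
    linarith
  have hfin := pencil h (6 * c₂ + 7) (by omega) (k * ℓ, a₀ * (k * ℓ) + v₀) (L ^ 3 * θ)
    (by positivity) W' hW' hx hcard
  refine hfin.trans ?_
  have e1 : 4 * L * (L ^ 3 * θ + 4 * δ) ≤ L ^ 5 * θ := by
    have e2 : 4 * L * (L ^ 3 * θ + 4 * δ) ≤ 4 * L * (L ^ 3 * θ + L ^ 3 * θ) := by
      refine mul_le_mul_of_nonneg_left ?_ (by positivity)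
      have e3 : 4 * δ ≤ L ^ 3 * θ := by
        have : (4 : ℝ) ≤ L ^ 3 := by nlinarith [mul_nonneg hL0.le hL0.le]
        nlinarith
      linarith
    refine e2.trans ?_
    have e4 : 4 * L * (L ^ 3 * θ + L ^ 3 * θ) = 8 * (L ^ 4 * θ) := by ring
    rw [e4]
    have e5 : L ^ 5 * θ = L * (L ^ 4 * θ) := by ring
    rw [e5]
    exact mul_le_mul_of_nonneg_right (by linarith) (by positivity)
  calc L ^ (2 * (6 * c₂ + 7) + 1) * (4 * L * (L ^ 3 * θ + 4 * δ)) ≤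
      L ^ (2 * (6 * c₂ + 7) + 1) * (L ^ 5 * θ) :=
        mul_le_mul_of_nonneg_left e1 (by positivity)
    _ = L ^ (12 * c₂ + 20) * θ := by ring

end Main

end Vale.Agent.P065.UB.H295
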